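import Vale.Agent.P022D.Loc2.Dec

namespace Vale.Agent.P022F.Loc2
export Vale.Agent.P022D.Loc2 (
  mem_PP norm_p io jj frac fix io_inj PP_prime norm_lt jj_cont algQ io_jj range_jj PP
  norm_int p_mem_PP galQ ex_res clQ)
end Vale.Agent.P022F.Loc2
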