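import Vale.Agent.P022D.Loc2.Defs
import Vale.Agent.P022F.L2b.Defs

namespace Vale.Agent.P022F.Loc2
export Vale.Agent.P022D.Loc2 (
  OutG coG outG_of_out Two2 Inf2 TnG)
end Vale.Agent.P022F.Loc2
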